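import Crest.Agent.R182.NA.Ch1

/-! R182/NA/Ch: the density chain (owner helper16; statements frozen). -/

set_option autoImplicit false
set_option linter.unusedVariables false
set_option linter.unusedSectionVars false
open Set Filter Topology MeasureTheory ProbabilityTheory Matrix Crest.GroupTheory
open scoped Pointwise commutatorElement ENNReal

noncomputable section
namespace Crest.Agent.R182

namespace Model
variable {h k : ℕ} (M : Model h k)

/-- the probability that all partial products stay in `T` -/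
def chP {m : ℕ} (v : Fin m → V h) (R : Fin m → ℝ) (T : Set M.G) (x : M.G) : ℝ≥0∞ :=
  boxL R {τ | ∀ j, x * ((List.ofFn fun i => M.exp (τ i • v i)).take j).prod ∈ T}

theorem ch_meas {m : ℕ} (v : Fin m → V h) {T : Set M.G} (hT : MeasurableSet T) :
    MeasurableSet {p : M.G × (Fin m → ℝ) | ∀ j, p.1 * ((List.ofFn fun i => M.exp (p.2 i • v i)).take j).prod ∈ T} := by
  rw [Set.setOf_forall]
  exact MeasurableSet.iInter fun j => (measurable_fst.mul ((M.measurable_word v j).comp measurable_snd)) hT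

theorem measurable_chP {m : ℕ} (v : Fin m → V h) {R : Fin m → ℝ} (hR : ∀ i, 0 < R i) {T : Set M.G} (hT : MeasurableSet T) :
    Measurable (M.chP v R T) := by

  haveI := boxL_prob hR
  exact measurable_measure_prodMk_left (ν := boxL R) (M.ch_meas v hT)

theorem chP_le {m : ℕ} (v : Fin m → V h) {R : Fin m → ℝ} (hR : ∀ i, 0 < R i) (T : Set M.G) (x : M.G) :
    M.chP v R T x ≤ T.indicator 1 x := by

  haveI := boxL_prob hR
  by_cases hx : x ∈ T
  · rw [Set.indicator_of_mem hx]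
    exact prob_le_one
  · rw [chP, Set.eq_empty_of_forall_notMem (s := {τ | _}) fun τ hτ => hx (by simpa using hτ 0), measure_empty]
    exact zero_le

theorem chP_zero (v : Fin 0 → V h) (R : Fin 0 → ℝ) (T : Set M.G) (x : M.G) : M.chP v R T x = T.indicator 1 x := by

  haveI := boxL_prob (R := R) fun i => i.elim0
  by_cases hx : x ∈ T
  · rw [Set.indicator_of_mem hx, chP, Set.eq_univ_of_forall (s := {τ | _}) fun τ j => by simpa using hx, measure_univ]
    rfl
  · rw [Set.indicator_of_notMem hx, chP,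
      Set.eq_empty_of_forall_notMem (s := {τ | _}) fun τ hτ => hx (by simpa using hτ 0), measure_empty]

/-- `boxL_succ`, `Measure.prod_apply`, `List.ofFn_succ`, split `∀ j` into `0` and successors. -/
theorem chP_succ {m : ℕ} (v : Fin (m + 1) → V h) {R : Fin (m + 1) → ℝ} (hR : ∀ i, 0 < R i) {T : Set M.G} (hT : MeasurableSet T)
    (x : M.G) : M.chP v R T x =
      T.indicator 1 x * ∫⁻ τ, M.chP (Fin.tail v) (Fin.tail R) T (x * M.exp (τ • v 0)) ∂unif (R 0) := by

  haveI := boxL_prob (R := Fin.tail R) fun i => hR i.succ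
  have hm : MeasurableSet {τ : Fin (m + 1) → ℝ | ∀ j, x * ((List.ofFn fun i => M.exp (τ i • v i)).take j).prod ∈ T} :=
    measurable_prodMk_left (M.ch_meas v hT)
  by_cases hx : x ∈ T
  · rw [Set.indicator_of_mem hx, Pi.one_apply, one_mul, chP, boxL_succ hR, Measure.map_apply measurable_cons hm,
      Measure.prod_apply (measurable_cons hm)]
    refine lintegral_congr fun τ => ?_
    rw [chP]
    congr 1
    ext σ
    simp only [Set.mem_preimage, Set.mem_setOf_eq, List.ofFn_succ, Fin.cons_zero, Fin.cons_succ, Fin.tail]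
    refine ⟨fun H j => ?_, fun H j => ?_⟩
    · have := H (j + 1)
      rwa [List.take_succ_cons, List.prod_cons, ← mul_assoc] at this
    · cases j with
      | zero => simpa using hx
      | succ j => rw [List.take_succ_cons, List.prod_cons, ← mul_assoc]; exact H j
  · rw [Set.indicator_of_notMem hx, zero_mul]
    exact le_antisymm ((M.chP_le v hR T x).trans_eq (Set.indicator_of_notMem hx _)) zero_le

theorem ch_lw (ρ : ℝ) {T : Set M.G} (hT : MeasurableSet T) (hTG : T ⊆ M.exp '' M.Gv ρ) :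
    M.hm M.E (M.exp '' M.Gv ρ) ≠ 0 ∧ M.hm M.E (M.exp '' M.Gv ρ) ≠ ∞ ∧
      M.hm M.E T = M.lw M.E (M.Gv ρ) T * M.hm M.E (M.exp '' M.Gv ρ) ∧ M.lw M.E (M.Gv ρ) T ≠ ∞ := by
  have hp := M.isProbabilityMeasure_lw_Gv (U := M.E) le_rfl one_pos ρ
  rw [one_smul] at hp
  have h1 : M.lw M.E (M.Gv ρ) univ = 1 := measure_univ
  rw [lw, cond_apply' MeasurableSet.univ, inter_univ] at h1
  have g0 : M.hm M.E (M.exp '' M.Gv ρ) ≠ 0 := fun h0 => by simp [h0] at h1
  have g1 : M.hm M.E (M.exp '' M.Gv ρ) ≠ ∞ := fun h0 => by simp [h0] at h1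
  refine ⟨g0, g1, ?_, measure_ne_top _ _⟩
  rw [lw, cond_apply' hT, inter_eq_self_of_subset_right hTG, mul_right_comm, ENNReal.inv_mul_cancel g0 g1, one_mul]

theorem ch_lower (m : ℕ) : ∃ c : ℝ, 0 < c ∧ ∀ (v : Fin m → V h) (R : Fin m → ℝ) (ρ : ℝ), (∀ i, v i ∈ M.E ∧ 0 < R i ∧
    R i * ‖v i‖ ≤ Real.exp ρ) → ∀ T : Set M.G, MeasurableSet T → T ⊆ M.exp '' M.Gv ρ →
      ENNReal.ofReal c * M.lw M.E (M.Gv ρ) T ^ (2 ^ m) * M.hm M.E (M.exp '' M.Gv ρ) ≤ ∫⁻ x, M.chP v R T x ∂M.hm M.E := by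
  induction m with
  | zero =>
    refine ⟨1, one_pos, fun v R ρ _ T hT hTG => ?_⟩
    simp only [chP_zero, lintegral_indicator_one hT, ENNReal.ofReal_one, one_mul, pow_zero, pow_one]
    exact (M.ch_lw ρ hT hTG).2.2.1.ge
  | succ m ih =>
    obtain ⟨c, hc, H⟩ := ih
    obtain ⟨D, hD, HD⟩ := M.chain_step
    refine ⟨c ^ 2 / D, by positivity, fun v R ρ hv T hT hTG => ?_⟩
    obtain ⟨g0, g1, -, -⟩ := M.ch_lw ρ hT hTG
    have hR : ∀ i, 0 < Fin.tail R i := fun i => (hv i.succ).2.1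
    have h1 := H (Fin.tail v) (Fin.tail R) ρ (fun i => hv i.succ) T hT hTG
    have h2 := HD (v 0) (R 0) ρ (hv 0).1 (hv 0).2.1 (hv 0).2.2 _ (M.measurable_chP (Fin.tail v) hR hT) fun x hx =>
      le_antisymm ((M.chP_le _ hR T x).trans_eq (Set.indicator_of_notMem (fun h' => hx (hTG h')) _)) zero_le
    have h3 : ∫⁻ x, M.chP (Fin.tail v) (Fin.tail R) T x *
        ∫⁻ τ, M.chP (Fin.tail v) (Fin.tail R) T (x * M.exp (τ • v 0)) ∂unif (R 0) ∂M.hm M.E ≤ ∫⁻ x, M.chP v R T x ∂M.hm M.E :=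
      lintegral_mono fun x => by
        rw [M.chP_succ v (fun i => (hv i).2.1) hT]
        exact mul_le_mul_left (M.chP_le _ hR T x) _
    have h4 := ((pow_le_pow_left₀ zero_le h1 2).trans h2).trans (mul_le_mul_right h3 _)
    have d0 : ENNReal.ofReal D ≠ 0 := by simpa using (by linarith : 0 < D)
    refine (ENNReal.mul_le_mul_iff_right (mul_ne_zero d0 g0) (ENNReal.mul_ne_top ENNReal.ofReal_ne_top g1)).1
      (le_of_eq_of_le ?_ h4)
    have e : ENNReal.ofReal c ^ 2 = ENNReal.ofReal D * ENNReal.ofReal (c ^ 2 / D) := by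
      rw [← ENNReal.ofReal_mul (by linarith), ← ENNReal.ofReal_pow hc.le, mul_div_cancel₀ _ (by linarith)]
    rw [mul_pow, mul_pow, e, ← pow_mul, ← pow_succ]
    ring

/-- Induction on `m`: `ofReal c * (μ T / μ G) ^ (2 ^ m) * μ G ≤ ∫ chP dμ`, `μ = hm E`, `G = exp '' Gv ρ` (`0 < μ G < ∞` since `lw` is a
probability measure), `c (m + 1) = c m ^ 2 / D` (`chain_step`, `chP_le`).  Then halve `c` and argue by contradiction. -/
theorem exists_chain' (m : ℕ) : ∃ c : ℝ, 0 < c ∧ ∀ (v : Fin m → V h) (R : Fin m → ℝ) (ρ : ℝ), (∀ i, v i ∈ M.E ∧ 0 < R i ∧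
    R i * ‖v i‖ ≤ Real.exp ρ) → ∀ T : Set M.G, MeasurableSet T → T ⊆ M.exp '' M.Gv ρ → M.lw M.E (M.Gv ρ) T ≠ 0 → ∃ x ∈ T,
      ENNReal.ofReal c * M.lw M.E (M.Gv ρ) T ^ (2 ^ m) ≤ M.chP v R T x := by

  obtain ⟨c, hc, H⟩ := M.ch_lower m
  refine ⟨c / 2, by positivity, fun v R ρ hv T hT hTG h0 => ?_⟩
  obtain ⟨g0, g1, g2, g3⟩ := M.ch_lw ρ hT hTG
  by_contra hcon
  push Not at hcon
  have h1 := H v R ρ hv T hT hTG
  have h2 : ∫⁻ x, M.chP v R T x ∂M.hm M.E ≤
      ENNReal.ofReal (c / 2) * M.lw M.E (M.Gv ρ) T ^ (2 ^ m) * M.hm M.E (M.exp '' M.Gv ρ) := by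
    calc _ ≤ ∫⁻ x, T.indicator (fun _ => ENNReal.ofReal (c / 2) * M.lw M.E (M.Gv ρ) T ^ (2 ^ m)) x ∂M.hm M.E := by
          refine lintegral_mono fun x => ?_
          by_cases hx : x ∈ T
          · rw [Set.indicator_of_mem hx]
            exact (hcon x hx).le
          · exact ((M.chP_le v (fun i => (hv i).2.1) T x).trans_eq (Set.indicator_of_notMem hx _)).trans zero_le
      _ ≤ _ := by
          rw [lintegral_indicator_const hT]
          exact mul_le_mul_right (measure_mono hTG) _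
  have h3 := h1.trans h2
  rw [ENNReal.mul_le_mul_iff_left g0 g1, ENNReal.mul_le_mul_iff_left (pow_ne_zero _ h0) (ENNReal.pow_ne_top g3),
    ENNReal.ofReal_le_ofReal_iff (by positivity)] at h3
  linarith

end Model

end Crest.Agent.R182
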