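import Crest.Agent.R182.NA.Box

/-! R182/NA/Hop: one merge (owner helper16; statements frozen). -/

set_option autoImplicit false
set_option linter.unusedVariables false
set_option linter.unusedSectionVars false
open Set Filter Topology MeasureTheory ProbabilityTheory Matrix Crest.GroupTheory
open scoped Pointwise commutatorElement ENNReal

noncomputable section
namespace Crest.Agent.R182

namespace Model
variable {h k : ℕ} (M : Model h k)

omit M in
theorem hop_rev {G : Type} [Group G] {l l₃ : List G} (h3 : l₃ <+: (l.map (·⁻¹)).reverse) :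
    ∃ l', l' <+: l ∧ l.prod * l₃.prod = l'.prod := by
  induction l using List.reverseRecOn generalizing l₃ with
  | nil =>
    simp only [List.map_nil, List.reverse_nil, List.prefix_nil] at h3
    exact ⟨[], List.nil_prefix, by simp [h3]⟩
  | append_singleton m x ih =>
    rw [List.map_append, List.reverse_append, List.map_singleton, List.reverse_singleton, List.singleton_append,
      List.prefix_cons_iff] at h3
    rcases h3 with rfl | ⟨t, rfl, ht⟩
    · exact ⟨_, List.prefix_rfl, by simp⟩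
    · obtain ⟨l', h1, h2⟩ := ih ht
      exact ⟨l', h1.trans (List.prefix_append _ _), by simp [mul_assoc, h2]⟩

/-- Path `l ++ w ++ (l.map (·⁻¹)).reverse` from `q` to `q * u`, `w` a word for `s = l.prod⁻¹ * u * l.prod` (`exists_wrd`), letters in
`ballR (max Λ 1)`; `Aff.norm_bb_image`.  Prefixes: inside `l`; `l ++ w'` (`cc_mul`, `Lip.norm_cc`, `abs_dot_le`,
`B₁ = 1 + 2 K k nm β`); `l ++ w ++ (inverse of a suffix of l)` ends at `q * u * l'.prod` with `l' <+: l`, and
`chi (φ (q * u)) = chi (φ q)`. -/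
theorem hop {K : ℝ} (hK : 1 ≤ K) {β : Fin k → ℝ} (A : M.Aff β) : ∃ B₁ : ℝ, 1 ≤ B₁ ∧ ∀ Λ : ℝ, ∃ B : ℝ, 1 ≤ B ∧
    ∀ (φ : M.G → M.G) (q u : M.G) (l : List M.G) (r S : ℝ), M.Lip K φ → 1 ≤ S → (∀ x ∈ l, x ∈ M.ballR Λ) →
      l.prod⁻¹ * u * l.prod ∈ M.ballR S → M.chi (φ (q * u)) = M.chi (φ q) →
      (∀ l', l' <+: l → β ⬝ᵥ M.cc φ l'.prod q ≤ r) → β ⬝ᵥ M.cc φ l.prod q ≤ r - B₁ * S →
      (∀ l', l' <+: l → β ⬝ᵥ M.cc φ l'.prod (q * u) ≤ r) →
      ‖A.bb ((φ q)⁻¹ * φ (q * u))‖ ≤ B * (2 * l.length + S) * Real.exp r := by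
  have hβ := nm_nonneg β
  have hk : (0 : ℝ) ≤ k := Nat.cast_nonneg k
  have hK0 : 0 ≤ K := zero_le_one.trans hK
  refine ⟨1 + 2 * K * k * nm β, le_add_of_nonneg_right (by positivity), fun Λ => ?_⟩
  obtain ⟨B, hB, H⟩ := A.norm_bb_image K (max Λ 1) hK0 (zero_le_one.trans (le_max_right _ _))
  refine ⟨B, hB, fun φ q u l r S hφ hS hl hs hχ h1 h2 h3 => ?_⟩
  obtain ⟨w, hw, hwl, hwp⟩ := M.exists_wrd (l.prod⁻¹ * u * l.prod)
  have hwS : (w.length : ℝ) ≤ S := by rw [hwl]; exact hs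
  have e : (l ++ (w ++ (l.map (·⁻¹)).reverse)).prod = u := by
    rw [List.prod_append, List.prod_append, hwp, ← List.prod_inv_reverse]
    group
  have h4 := H φ q (l ++ (w ++ (l.map (·⁻¹)).reverse)) r hφ (fun x hx => ?_) fun l' hl' => ?_
  · rw [e] at h4
    refine h4.trans ?_
    simp only [List.length_append, List.length_reverse, List.length_map]
    push_cast
    exact mul_le_mul_of_nonneg_right (mul_le_mul_of_nonneg_left (by linarith) (zero_le_one.trans hB)) (Real.exp_pos r).le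
  · simp only [List.mem_append, List.mem_reverse, List.mem_map] at hx
    rcases hx with hx | hx | ⟨y, hy, rfl⟩
    · exact M.ballR_mono (le_max_left _ _) (hl x hx)
    · refine M.ballR_mono (le_max_right _ _) ?_
      show (M.len x : ℝ) ≤ 1
      exact_mod_cast M.apipolyb_len (hw x hx)
    · exact M.ballR_mono (le_max_left _ _) (M.inv_mem_ballR (hl y hy))
  · rcases List.prefix_or_prefix_of_prefix hl' (List.prefix_append l _) with h5 | ⟨l₂, rfl⟩
    · exact h1 l' h5
    rw [List.prefix_append_right_inj] at hl'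
    rcases List.prefix_or_prefix_of_prefix hl' (List.prefix_append w _) with h5 | ⟨l₃, rfl⟩
    · rw [List.prod_append, M.cc_mul, dotProduct_add]
      have h6 : (M.len l₂.prod : ℝ) ≤ S := le_trans (by exact_mod_cast (hw.of_prefix h5).len_le.trans h5.length_le) hwS
      have h7 : ‖M.cc φ l₂.prod (q * l.prod)‖ ≤ 2 * K * S :=
        (hφ.norm_cc _ _).trans (by nlinarith [mul_le_mul_of_nonneg_left h6 hK0])
      have h8 := (le_abs_self _).trans ((abs_dot_le β _).trans
        (mul_le_mul_of_nonneg_left (mul_le_mul_of_nonneg_left h7 hk) hβ))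
      nlinarith
    · rw [List.prefix_append_right_inj] at hl'
      obtain ⟨l', h5, h6⟩ := hop_rev hl'
      have e' : (l ++ (w ++ l₃)).prod = u * l'.prod := by
        rw [List.prod_append, List.prod_append, hwp, ← h6]
        group
      rw [e', M.cc_mul, show M.cc φ u q = 0 from sub_eq_zero.2 hχ, zero_add]
      exact h3 l' h5

/-- telescoping with `Aff.bb_mul`, `Aff.lam_congr` (`lam = 1` when `tv = 0`). -/
theorem bb_tele {β : Fin k → ℝ} (A : M.Aff β) (y : ℕ → M.G) (n : ℕ) {H : ℝ} (ht : ∀ j ≤ n, M.tv (y j) = M.tv (y 0))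
    (hb : ∀ j < n, ‖A.bb ((y j)⁻¹ * y (j + 1))‖ ≤ H) : ‖A.bb ((y 0)⁻¹ * y n)‖ ≤ n * H := by
  induction n with
  | zero => simp [A.bb_C M.C.one_mem]
  | succ n ih =>
    have h1 := ih (fun j hj => ht j (Nat.le_succ_of_le hj)) fun j hj => hb j (Nat.lt_succ_of_lt hj)
    have e : (y 0)⁻¹ * y (n + 1) = (y 0)⁻¹ * y n * ((y n)⁻¹ * y (n + 1)) := by group
    have e' : A.lam ((y 0)⁻¹ * y n) = 1 := by
      rw [A.lam_congr (g' := 1) (by rw [M.tv_mul, M.tv_inv, ht n (Nat.le_succ n), neg_add_cancel, M.tv_one]), map_one]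
    rw [e, A.bb_mul, e', Units.val_one, one_mul]
    refine (norm_add_le _ _).trans ?_
    have h2 := hb n (Nat.lt_succ_self n)
    push_cast
    linarith

/-- pigeonhole over the values of `tv`: at most `(2 r + 1) ^ k` classes. -/
theorem exists_class (μ : Measure M.G) {f : M.G → M.G} (hf : Measurable f) (y : M.G) {r : ℝ} (hr : 0 ≤ r) {T : Set M.G}
    (hT : ∀ x ∈ T, ‖M.chi (f x) - M.chi y‖ ≤ r) : ∃ t : Fin k → ℤ,
      μ T ≤ ENNReal.ofReal ((2 * r + 1) ^ k) * μ (T ∩ {x | M.tv (f x) = t}) := by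
  classical
  set F : Finset (Fin k → ℤ) := Fintype.piFinset fun i => Finset.Icc (M.tv y i - ⌊r⌋₊) (M.tv y i + ⌊r⌋₊) with hF
  have hne : F.Nonempty := ⟨M.tv y, by simp [hF]⟩
  obtain ⟨t, -, ht⟩ := F.exists_max_image (fun t => μ (T ∩ {x | M.tv (f x) = t})) hne
  refine ⟨t, ?_⟩
  have h1 : T ⊆ ⋃ s ∈ F, T ∩ {x | M.tv (f x) = s} := fun x hx => by
    refine mem_iUnion₂.2 ⟨M.tv (f x), Fintype.mem_piFinset.2 fun i => ?_, hx, rfl⟩
    have h2 := (norm_le_pi_norm _ i).trans (hT x hx)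
    rw [Pi.sub_apply, Real.norm_eq_abs] at h2
    have h3 : (((M.tv (f x) i - M.tv y i).natAbs : ℕ) : ℝ) ≤ r := by
      rw [Nat.cast_natAbs, Int.cast_abs, Int.cast_sub]
      exact h2
    have h4 := Nat.le_floor h3
    rw [Finset.mem_Icc]
    omega
  have h5 : (F.card : ℝ) ≤ (2 * r + 1) ^ k := by
    rw [hF, Fintype.card_piFinset]
    have : ∀ i, (Finset.Icc (M.tv y i - ⌊r⌋₊) (M.tv y i + ⌊r⌋₊)).card = 2 * ⌊r⌋₊ + 1 := fun i => by
      rw [Int.card_Icc]; omega
    simp only [this, Finset.prod_const, Finset.card_univ, Fintype.card_fin]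
    push_cast
    gcongr
    exact Nat.floor_le hr
  refine (measure_mono h1).trans ((measure_biUnion_finset_le _ _).trans ((Finset.sum_le_card_nsmul _ _ _ ht).trans ?_))
  rw [nsmul_eq_mul]
  gcongr
  rw [← ENNReal.ofReal_natCast]
  exact ENNReal.ofReal_le_ofReal h5

end Model

end Crest.Agent.R182
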