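import Crest.Agent.R182.NA.Law

/-! R182/NA/Ac2: adding a bracket (owner helper16; statements frozen). -/

set_option autoImplicit false
set_option linter.unusedVariables false
set_option linter.unusedSectionVars false
open Set Filter Topology MeasureTheory ProbabilityTheory Matrix Crest.GroupTheory
open scoped Pointwise commutatorElement ENNReal

noncomputable section
namespace Crest.Agent.R182

namespace Model
variable {h k : ℕ} (M : Model h k)

/-- The algebra.  `exp ((a + s) Y) exp (b Z) exp ((c - s) Y) = exp (a Y) exp (Ad (exp (s Y)) (b Z)) exp (c Y)` (`exp_add_smul`, `conj`),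
`Ad (exp (s Y)) (b Z) = b Z + s b [Y, Z] + R`, `R ∈ EF (i + 2)` (`apilogb_Ad`), `exp (b Z + σ v + R) = exp (b Z) exp (σ v + R')`
(`exp_eq_mul`, `bch_sub_mem`, `br_EF`); so the element is `g * (exp (Ad c X) * exp (-(σ v + R'))) * g⁻¹` with
`g = exp (a Y) exp (b Z)`; `conj_mem_expSub`, `Ad_exp_sub_mem` (`br E U ≤ EF (i + 2) ≤ U`). -/
theorem acs_br_alg {i : ℕ} {U : Submodule ℝ (V h)} (h1 : M.EF (i + 2) ≤ U) (h2 : U ≤ M.EF (i + 1)) {Y Z X : V h}
    (hY : Y ∈ M.E) (hZ : Z ∈ M.EF i) (a b c s : ℝ) (hX : X - (s * b) • M.br Y Z ∈ U) :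
    ∃ X' ∈ U, M.exp (a • Y) * M.exp (b • Z) * M.exp (c • Y) * M.exp X =
      M.exp X' * (M.exp ((a + s) • Y) * M.exp (b • Z) * M.exp ((c - s) • Y)) := by
  have hE : ∀ X ∈ M.E, ∀ j, ∀ W ∈ M.EF j, M.br X W ∈ M.EF j := fun X hX j W hW =>
    M.EF_anti (Nat.le_succ j) (Submodule.apply_mem_map₂ _ hX hW)
  have hle : ∀ j, M.EF j ≤ M.E := fun j => M.EF_anti (Nat.zero_le j)
  have hU : ∀ W ∈ M.E, ∀ X ∈ U, M.br W X ∈ U := fun W hW X hX => h1 (Submodule.apply_mem_map₂ _ hW (h2 hX))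
  have hs : M.IsSub U := fun W hW => hU W (hle _ (h2 hW))
  have hAd : ∀ W ∈ M.E, ∀ X ∈ U, M.Ad (M.exp W) X ∈ U := fun W hW X hX => by
    simpa using U.add_mem (M.Ad_exp_sub_mem (hU W hW X hX) (hU W hW)) hX
  have hv : (s * b) • M.br Y Z ∈ M.EF (i + 1) := Submodule.smul_mem _ _ (Submodule.apply_mem_map₂ _ hY hZ)
  have hX1 : X ∈ M.EF (i + 1) := by simpa using Submodule.add_mem _ (h2 hX) hv
  obtain ⟨R, hR, e⟩ := M.comm_exp (M.E.smul_mem s hY) ((M.EF i).neg_mem ((M.EF i).smul_mem b hZ))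
  have e' : M.br (s • Y) (-(b • Z)) = -((s * b) • M.br Y Z) := by simp [smul_smul, mul_comm]
  rw [e'] at e
  have h3 : M.Ad (M.exp (c • Y)) X - X ∈ M.EF (i + 2) :=
    M.Ad_exp_sub_mem (Submodule.apply_mem_map₂ _ (M.E.smul_mem c hY) hX1) (hE _ (M.E.smul_mem c hY) _)
  have h4 : M.Ad (M.exp (c • Y)) X ∈ M.EF (i + 1) := M.Ad_EF _ hX1
  have h5 : -((s * b) • M.br Y Z) + R ∈ M.EF (i + 1) :=
    Submodule.add_mem _ (Submodule.neg_mem _ hv) (M.EF_anti (Nat.le_succ _) hR)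
  have h6 := M.bch_sub_mem (U := M.EF (i + 2)) (Submodule.apply_mem_map₂ _ (hle _ h4) h5) (hE _ (hle _ h4) _) (hE _ (hle _ h5) _)
  have h7 : M.bch (M.Ad (M.exp (c • Y)) X) (-((s * b) • M.br Y Z) + R) ∈ U := by
    convert U.add_mem (U.add_mem (U.add_mem (h1 h6) (h1 h3)) hX) (h1 hR) using 1
    abel
  refine ⟨_, hAd (a • Y) (M.E.smul_mem a hY) _ (hAd (b • Z) (hle _ ((M.EF i).smul_mem b hZ)) _ h7), ?_⟩
  rw [← M.conj, ← M.conj, ← M.exp_bch, ← e, ← M.conj, M.exp_add_smul, show c - s = -s + c by ring, M.exp_add_smul, neg_smul,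
    M.exp_neg, M.exp_neg, commutatorElement_def]
  group

/-- shifting the first and the third parameter by a measurable function of the second one (`unif_shift` twice, Tonelli). -/
theorem _root_.Crest.Agent.R182.unif_shear {R δ : ℝ} (hR : 0 < R) {s : ℝ → ℝ} (hs : Measurable s) (hδ : ∀ b, |s b| ≤ δ)
    {F : ℝ × ℝ × ℝ → ℝ≥0∞} (hF : Measurable F) (h1 : ∀ τ, F τ ≤ 1) :
    ∫⁻ τ, F (τ.1 + s τ.2.1, τ.2.1, τ.2.2 - s τ.2.1) ∂(unif R).prod ((unif R).prod (unif R)) ≤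
      ∫⁻ τ, F τ ∂(unif R).prod ((unif R).prod (unif R)) + ENNReal.ofReal (2 * δ / R) := by
  have := unif_prob hR
  have hT : Measurable fun τ : ℝ × ℝ × ℝ => F (τ.1 + s τ.2.1, τ.2.1, τ.2.2 - s τ.2.1) := by fun_prop
  have hT' : Measurable fun τ : ℝ × ℝ × ℝ => F (τ.1, τ.2.1, τ.2.2 - s τ.2.1) := by fun_prop
  have hδ' : ∀ b, ENNReal.ofReal (|s b| / R) ≤ ENNReal.ofReal (δ / R) := fun b =>
    ENNReal.ofReal_le_ofReal (div_le_div_of_nonneg_right (hδ b) hR.le)
  have hd : 0 ≤ δ / R := div_nonneg ((abs_nonneg _).trans (hδ 0)) hR.le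
  have s1 : ∫⁻ τ, F (τ.1 + s τ.2.1, τ.2.1, τ.2.2 - s τ.2.1) ∂(unif R).prod ((unif R).prod (unif R)) ≤
      ∫⁻ τ, F (τ.1, τ.2.1, τ.2.2 - s τ.2.1) ∂(unif R).prod ((unif R).prod (unif R)) + ENNReal.ofReal (δ / R) := by
    rw [lintegral_prod_symm _ hT.aemeasurable, lintegral_prod_symm _ hT'.aemeasurable]
    refine (lintegral_mono fun q : ℝ × ℝ => (unif_shift hR (s q.1) (F := fun x => F (x, q.1, q.2 - s q.1)) (by fun_prop)
      fun _ => h1 _).trans (add_le_add le_rfl (hδ' _))).trans_eq ?_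
    rw [lintegral_add_right _ measurable_const, lintegral_const, measure_univ, mul_one]
  have s2 : ∫⁻ τ, F (τ.1, τ.2.1, τ.2.2 - s τ.2.1) ∂(unif R).prod ((unif R).prod (unif R)) ≤
      ∫⁻ τ, F τ ∂(unif R).prod ((unif R).prod (unif R)) + ENNReal.ofReal (δ / R) := by
    rw [lintegral_prod _ hT'.aemeasurable, lintegral_prod _ hF.aemeasurable]
    have key : ∀ x, ∫⁻ q, F (x, q.1, q.2 - s q.1) ∂(unif R).prod (unif R) ≤
        ∫⁻ q, F (x, q) ∂(unif R).prod (unif R) + ENNReal.ofReal (δ / R) := fun x => by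
      rw [lintegral_prod _ (by fun_prop), lintegral_prod _ (by fun_prop)]
      refine (lintegral_mono fun y => (unif_shift hR (-s y) (F := fun z => F (x, y, z)) (by fun_prop)
        fun _ => h1 _).trans (add_le_add le_rfl ((abs_neg (s y)).symm ▸ hδ' y : _ ≤ ENNReal.ofReal (δ / R)))).trans_eq ?_
      rw [lintegral_add_right _ measurable_const, lintegral_const, measure_univ, mul_one]
    refine (lintegral_mono key).trans_eq ?_
    rw [lintegral_add_right _ measurable_const, lintegral_const, measure_univ, mul_one]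
  refine s1.trans ((add_le_add s2 le_rfl).trans_eq ?_)
  rw [add_assoc, ← ENNReal.ofReal_add hd hd]
  congr 2
  ring

theorem ac2b_small {R : ℝ} (hR : 0 < R) : (unif R).prod ((unif R).prod (unif R))
    {τ | |τ.1| ≤ R ∧ |τ.2.1| ≤ R ∧ |τ.2.2| ≤ R ∧ 1 ≤ |τ.2.1|}ᶜ ≤ ENNReal.ofReal (1 / R) := by
  have := unif_prob hR
  have h1 := (Measure.quasiMeasurePreserving_fst (μ := unif R) (ν := (unif R).prod (unif R))).ae (unif_ae R)
  have h2 := (Measure.quasiMeasurePreserving_snd (μ := unif R) (ν := (unif R).prod (unif R))).ae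
    (((Measure.quasiMeasurePreserving_fst (μ := unif R) (ν := unif R)).ae (unif_ae R)).and
      ((Measure.quasiMeasurePreserving_snd (μ := unif R) (ν := unif R)).ae (unif_ae R)))
  refine (measure_mono_ae (t := univ ×ˢ ({b : ℝ | |b| < 1} ×ˢ univ)) ?_).trans ?_
  · filter_upwards [h1, h2] with τ a b hτ
    exact ⟨trivial, lt_of_not_ge fun c => hτ ⟨a, b.1, b.2, c⟩, trivial⟩
  · simpa [Measure.prod_prod] using unif_small hR zero_le_one

/-- New list `L ++ [(Y, e), (Z, e), (Y, e)]` (`lawL_append`, `lawL_three`), `inv_step` with the shear `s b = if 1 ≤ |b| then σ / b else 0`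
(`exists_coef`, `unif_shear` with `δ = |σ|`), `Ω₀ = {|τ i| ≤ R, 1 ≤ |τ₂|}` (`unif_small`, `unif_ae`), `acs_br_alg`, norm of `X'` by
`norm_prod_le` (`exp X'` is a product of 7 exponentials) and `exp_inj`.  Exponents as in `acs_root`. -/
theorem acs_br {i : ℕ} {U : Submodule ℝ (V h)} (h1 : M.EF (i + 2) ≤ U) (h2 : U ≤ M.EF (i + 1)) (hU : M.ACS U) {Y Z : V h}
    {α : Fin k → ℝ} (hα : α ≠ 0) (hY : Y ∈ M.W α) (hZ : Z ∈ M.W (-α)) (hZi : Z ∈ M.EF i) (hYn : ‖Y‖ ≤ 1) (hZn : ‖Z‖ ≤ 1) :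
    M.ACS (U ⊔ Submodule.span ℝ {M.br Y Z}) := by
  obtain ⟨L, γ', hγ', hL, hev⟩ := hU
  obtain ⟨C, hC, hcoef⟩ := exists_coef U (M.br Y Z)
  obtain ⟨B, D, hB, hnp⟩ := M.norm_prod_le
  obtain ⟨e, he0, he1, heD⟩ : ∃ e : ℝ, 0 < e ∧ e ≤ 1 ∧ D * e < γ' := by
    refine ⟨min 1 (γ' / (D + 1)), by positivity, min_le_left _ _,
      (mul_le_mul_of_nonneg_left (min_le_right _ _) (Nat.cast_nonneg D)).trans_lt ?_⟩
    rw [← mul_div_assoc, div_lt_iff₀ (by positivity)]
    linarith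
  obtain ⟨γ, hγ, hγ1, hγ2⟩ : ∃ γ : ℝ, 0 < γ ∧ 3 * γ ≤ γ' ∧ 3 * γ ≤ e :=
    ⟨min γ' e / 3, by positivity, by linarith [min_le_left γ' e], by linarith [min_le_right γ' e]⟩
  refine ⟨L ++ [(Y, e), (Z, e), (Y, e)], γ, hγ, fun x hx => ?_, ?_⟩
  · simp only [List.mem_append, List.mem_cons, List.not_mem_nil, or_false] at hx
    rcases hx with hx | rfl | rfl | rfl
    exacts [hL x hx, ⟨hYn, ⟨α, hα, hY⟩, he0, he1⟩, ⟨hZn, ⟨-α, neg_ne_zero.2 hα, hZ⟩, he0, he1⟩, ⟨hYn, ⟨α, hα, hY⟩, he0, he1⟩]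
  filter_upwards [hev, eventually_ge_atTop 0, ev_exp_le (B * (8 * (1 + C)) ^ D) heD,
    ev_exp_le 3 (show -γ' < -γ by linarith), ev_exp_le 3 (show -e < -γ by linarith),
    ev_exp_le (6 * C) (show γ - e < -γ by linarith)] with ρ hinv hρ a1 a2 a3 a4
  rintro _ ⟨X, ⟨hX, hXn⟩, rfl⟩ A hA
  obtain ⟨σ, hσ, hσn⟩ := hcoef X hX
  obtain ⟨R, hRe⟩ : ∃ R, R = Real.exp (e * ρ) := ⟨_, rfl⟩
  have hR : 0 < R := hRe ▸ Real.exp_pos _
  have hR1 : 1 ≤ R := hRe ▸ Real.one_le_exp (by positivity)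
  have hγR : Real.exp (γ * ρ) ≤ R := hRe ▸ Real.exp_le_exp.2 (by nlinarith)
  have hsc : ∀ x ∈ scl L ρ, 0 < x.2 := fun x hx => by
    obtain ⟨y, -, rfl⟩ := List.mem_map.1 hx
    exact Real.exp_pos _
  have e1 : scl (L ++ [(Y, e), (Z, e), (Y, e)]) ρ = scl L ρ ++ [(Y, R), (Z, R), (Y, R)] := by simp [scl, hRe]
  rw [e1, M.lawL_append hsc (by simp [hR]), M.lawL_three Y Z hR]
  have := unif_prob hR
  have := M.lawL_prob hsc
  let s : ℝ → ℝ := fun b => if 1 ≤ |b| then σ / b else 0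
  have hs : Measurable s := Measurable.ite (measurableSet_le measurable_const measurable_norm)
    (measurable_const.div measurable_id) measurable_const
  have hδ : ∀ b, |s b| ≤ C * Real.exp (γ * ρ) := fun b => by
    refine le_trans ?_ (hσn.trans (mul_le_mul_of_nonneg_left hXn (by linarith)))
    simp only [s]
    split_ifs with hb
    · rw [abs_div]
      exact div_le_self (abs_nonneg _) hb
    · simp
  refine (M.inv_step ((unif R).prod ((unif R).prod (unif R))) (Real.exp_pos _).le (by positivity) (by positivity) hinv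
    ((((M.measurable_step Y).comp measurable_fst).mul ((M.measurable_step Z).comp measurable_snd.fst)).mul
      ((M.measurable_step Y).comp measurable_snd.snd)) (M.exp X)
    (T := fun τ => (τ.1 + s τ.2.1, τ.2.1, τ.2.2 - s τ.2.1)) (by fun_prop) (ac2b_small hR)
    (fun F hF h1 => unif_shear hR hs hδ hF h1) ?_ A hA).trans (add_le_add le_rfl (ENNReal.ofReal_le_ofReal ?_))
  · rintro ⟨a, b, c⟩ ⟨ha, hb, hc, hb1⟩
    dsimp only at ha hb hc hb1
    have hsb : s b * b = σ := by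
      simp only [s, if_pos hb1]
      exact div_mul_cancel₀ σ (by rintro rfl; norm_num at hb1)
    obtain ⟨X', hX', e2⟩ := M.acs_br_alg h1 h2 (M.W_le_E hα hY) hZi a b c (s b) (hsb ▸ hσ)
    refine ⟨M.exp X', ⟨X', ⟨hX', ?_⟩, rfl⟩, e2⟩
    have hsR : |s b| ≤ C * R := (hδ b).trans (mul_le_mul_of_nonneg_left hγR (by linarith))
    have hCR : 0 ≤ C * R := by positivity
    have key : ∀ (t : ℝ) (v : V h), |t| ≤ R + C * R → ‖v‖ ≤ 1 → ‖t • v‖ ≤ (1 + C) * R := fun t v ht hv => by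
      rw [norm_smul, Real.norm_eq_abs]
      exact (mul_le_of_le_one_right (abs_nonneg _) hv).trans (by linarith)
    obtain ⟨Z', hZ', e3⟩ := hnp ((1 + C) * R) [a • Y, b • Z, c • Y, X, -((c - s b) • Y), -(b • Z), -((a + s b) • Y)]
      (by nlinarith) (by
        simp only [List.mem_cons, List.not_mem_nil, or_false, forall_eq_or_imp, forall_eq, norm_neg]
        exact ⟨key _ _ (by linarith) hYn, key _ _ (by linarith) hZn, key _ _ (by linarith) hYn, by linarith,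
          key _ _ ((abs_sub _ _).trans (by linarith)) hYn, key _ _ (by linarith) hZn,
          key _ _ ((abs_add_le _ _).trans (by linarith)) hYn⟩)
    have e4 : X' = Z' := M.exp_inj (by
      rw [← e3, eq_mul_inv_of_mul_eq e2.symm]
      simp only [List.map_cons, List.map_nil, List.prod_cons, List.prod_nil, M.exp_neg]
      group)
    refine e4 ▸ hZ'.trans (le_trans (le_of_eq ?_) a1)
    rw [mul_assoc (D : ℝ), Real.exp_nat_mul, ← hRe, mul_assoc, ← mul_pow]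
    norm_num [mul_assoc]
  · have b1 : 1 / R = Real.exp (-e * ρ) := by rw [hRe, neg_mul, Real.exp_neg, one_div]
    have b2 : 2 * (C * Real.exp (γ * ρ)) / R = 2 * C * Real.exp ((γ - e) * ρ) := by
      rw [hRe, sub_mul, Real.exp_sub]
      ring
    rw [b1, b2]
    simp only [neg_mul] at a2 a3 a4 ⊢
    linarith

end Model

end Crest.Agent.R182
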