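import Crest.Agent.R182.NA.Ac1
import Crest.Agent.R182.NA.Ac2

/-! R182/NA/Ac: anti-concentration (owner helper16; statements frozen). -/

set_option autoImplicit false
set_option linter.unusedVariables false
set_option linter.unusedSectionVars false
open Set Filter Topology MeasureTheory ProbabilityTheory Matrix Crest.GroupTheory
open scoped Pointwise commutatorElement ENNReal

noncomputable section
namespace Crest.Agent.R182

namespace Model
variable {h k : ℕ} (M : Model h k)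

theorem nac_down {i : ℕ} (h1 : M.ACS (M.EF (i + 1))) {T : Set (V h)}
    (hT : ∀ v ∈ T, v ∈ M.EF i ∧ ∀ U : Submodule ℝ (V h), M.EF (i + 1) ≤ U → U ≤ M.EF i → M.ACS U →
      M.ACS (U ⊔ Submodule.span ℝ {v}))
    (h2 : M.EF i ≤ M.EF (i + 1) ⊔ Submodule.span ℝ T) : M.ACS (M.EF i) := by
  obtain ⟨U, ⟨u1, u2, u3⟩, hmax⟩ := set_has_maximal_iff_noetherian.2 inferInstance
    {U : Submodule ℝ (V h) | M.EF (i + 1) ≤ U ∧ U ≤ M.EF i ∧ M.ACS U} ⟨_, le_rfl, M.EF_anti i.le_succ, h1⟩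
  have h3 : M.EF i ≤ U := by
    refine h2.trans (sup_le u1 (Submodule.span_le.2 fun v hv => ?_))
    obtain ⟨hv, hZ⟩ := hT v hv
    have h4 : U ⊔ Submodule.span ℝ {v} ≤ M.EF i := sup_le u2 ((Submodule.span_singleton_le_iff_mem _ _).2 hv)
    have h6 := eq_of_le_of_not_lt le_sup_left (hmax _ ⟨u1.trans le_sup_left, h4, hZ U u1 u2 u3⟩)
    exact h6.ge (Submodule.mem_sup_right (Submodule.mem_span_singleton_self v))
  rwa [← le_antisymm u2 h3]

theorem nac_norm (v : V h) : ‖(1 + ‖v‖)⁻¹ • v‖ ≤ 1 := by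
  have := norm_nonneg v
  rw [norm_smul, norm_inv, Real.norm_eq_abs, abs_of_pos (by positivity), inv_mul_le_iff₀ (by positivity)]
  linarith

theorem nac_root {i : ℕ} {U : Submodule ℝ (V h)} (h1 : M.EF (i + 1) ≤ U) (h2 : U ≤ M.EF i) (hU : M.ACS U) {v : V h}
    (hv : v ∈ M.EF i) {α : Fin k → ℝ} (hα : α ≠ 0) (hW : v ∈ M.W α) : M.ACS (U ⊔ Submodule.span ℝ {v}) := by
  have h0 : (1 + ‖v‖)⁻¹ ≠ 0 := by
    have := norm_nonneg v
    positivity
  have := M.acs_root h1 h2 hU (Submodule.smul_mem _ (1 + ‖v‖)⁻¹ hv) (nac_norm v) hα (Submodule.smul_mem _ _ hW)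
  rwa [Submodule.span_singleton_smul_eq h0.isUnit] at this

theorem nac_br {i : ℕ} {U : Submodule ℝ (V h)} (h1 : M.EF (i + 2) ≤ U) (h2 : U ≤ M.EF (i + 1)) (hU : M.ACS U) {Y Z : V h}
    {α : Fin k → ℝ} (hα : α ≠ 0) (hY : Y ∈ M.W α) (hZ : Z ∈ M.W (-α)) (hZi : Z ∈ M.EF i) :
    M.ACS (U ⊔ Submodule.span ℝ {M.br Y Z}) := by
  have h0 : (1 + ‖Z‖)⁻¹ * (1 + ‖Y‖)⁻¹ ≠ 0 := by
    have := norm_nonneg Y
    have := norm_nonneg Z
    positivity
  have := M.acs_br h1 h2 hU hα (Submodule.smul_mem _ (1 + ‖Y‖)⁻¹ hY) (Submodule.smul_mem _ (1 + ‖Z‖)⁻¹ hZ)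
    (Submodule.smul_mem _ _ hZi) (nac_norm Y) (nac_norm Z)
  rwa [map_smul, map_smul, LinearMap.smul_apply, smul_smul, Submodule.span_singleton_smul_eq h0.isUnit] at this

/-- copy `apiloga_down` and `logS_E` (A/ApiLog): maximal `U` between `EF (i + 1)` and `EF i` with `ACS U`; normalise the spanning
vectors (`(1 + ‖v‖)⁻¹ • v`); base `EF cl = ⊥` with the empty list. -/
theorem acs_E : M.ACS M.E := by
  have key : ∀ i ≤ M.cl, M.ACS (M.EF i) := by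
    intro i hi
    induction hi using Nat.decreasingInduction with
    | self =>
      refine ⟨[], 1, one_pos, by simp, Eventually.of_forall fun ρ => ?_⟩
      rintro _ ⟨X, ⟨hX, -⟩, rfl⟩ A hA
      have := M.EF_le_F _ hX
      rw [M.F_cl, Submodule.mem_bot] at this
      rw [this, M.exp_zero]
      simp only [mul_one, preimage_id']
      exact le_self_add
    | of_succ i _ ih =>
      cases i with
      | zero =>
        refine M.nac_down ih ?_ M.EF_zero_le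
        rintro v ⟨α, hα, hv⟩
        exact ⟨M.W_le_E hα hv, fun U u1 u2 u3 => M.nac_root u1 u2 u3 (M.W_le_E hα hv) hα hv⟩
      | succ i =>
        refine M.nac_down ih ?_ (M.EF_succ_le i)
        rintro v (⟨hi, α, hα, hv⟩ | ⟨α, hα, Y, hY, Z, hZ', hZ, rfl⟩)
        · exact ⟨hi, fun U u1 u2 u3 => M.nac_root u1 u2 u3 hi hα hv⟩
        · exact ⟨Submodule.apply_mem_map₂ _ (M.W_le_E hα hY) hZ, fun U u1 u2 u3 => M.nac_br u1 u2 u3 hα hY hZ' hZ⟩
  exact key 0 (Nat.zero_le _)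

/-- `acs_E`, `v = fun i => (L.get i).1`, `map_boxL`, `List.ofFn_get`; `Gv (γ ρ) ⊆ E ∩ ball (exp (B₀ γ ρ))` (`Gv_subset_E`, `norm_Qi`,
`γ ρ ≥ 1`); for small `ρ` the bound `B exp (-γ ρ) ≥ 1` is trivial (probability measures). -/
theorem exists_ac' : ∃ (m : ℕ) (v : Fin m → V h) (e : Fin m → ℝ) (γ B : ℝ), 0 < γ ∧ 1 ≤ B ∧
    (∀ i, ‖v i‖ ≤ 1 ∧ (∃ α, α ≠ 0 ∧ v i ∈ M.W α) ∧ 0 < e i ∧ e i ≤ 1) ∧ ∀ ρ : ℝ, 1 ≤ ρ →
      Inv ((boxL fun i => Real.exp (e i * ρ)).map fun τ => (List.ofFn fun i => M.exp (τ i • v i)).prod)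
        (M.exp '' M.Gv (γ * ρ)) (B * Real.exp (-(γ * ρ))) := by
  obtain ⟨L, γ₀, hγ₀, hL, hev⟩ := M.acs_E
  obtain ⟨B₀, hB₀, hQ⟩ := M.norm_Qi
  have hγ : 0 < γ₀ / B₀ := by positivity
  obtain ⟨ρ₀, hρ₀⟩ := eventually_atTop.1 (hev.and (eventually_ge_atTop (γ₀ / B₀)⁻¹))
  refine ⟨L.length, fun i => (L.get i).1, fun i => (L.get i).2, γ₀ / B₀, Real.exp (γ₀ / B₀ * |ρ₀|), hγ,
    Real.one_le_exp (by positivity), fun i => hL _ (List.get_mem L i), fun ρ hρ => ?_⟩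
  have hR : ∀ i : Fin L.length, 0 < Real.exp ((L.get i).2 * ρ) := fun i => Real.exp_pos _
  have e : (List.ofFn fun i : Fin L.length => ((L.get i).1, Real.exp ((L.get i).2 * ρ))) = scl L ρ := by
    conv_rhs => rw [scl, ← List.ofFn_get L, List.map_ofFn]
    rfl
  rw [M.map_boxL _ hR, e]
  rcases le_or_gt ρ₀ ρ with h1 | h1
  · obtain ⟨h2, h3⟩ := hρ₀ ρ h1
    have h4 : 1 ≤ γ₀ / B₀ * ρ := by
      rw [← inv_le_iff_one_le_mul₀' hγ]
      exact h3
    rintro _ ⟨X, hX, rfl⟩ A hA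
    have h5 := hQ (M.EV (γ₀ / B₀ * ρ)) _ h4 (fun Y hY => hY.2) X hX
    rw [show B₀ * (γ₀ / B₀ * ρ) = γ₀ * ρ by field_simp] at h5
    refine (h2 _ ⟨X, ⟨M.Gv_subset_E _ hX, h5⟩, rfl⟩ A hA).trans (add_le_add le_rfl (ENNReal.ofReal_le_ofReal ?_))
    rw [← Real.exp_add]
    refine Real.exp_le_exp.2 ?_
    have h6 : γ₀ / B₀ ≤ γ₀ := div_le_self hγ₀.le hB₀
    have h7 : 0 ≤ γ₀ / B₀ * |ρ₀| := by positivity
    nlinarith
  · haveI : IsProbabilityMeasure (M.lawL (scl L ρ)) := M.lawL_prob fun x hx => by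
      obtain ⟨y, -, rfl⟩ := List.mem_map.1 hx
      exact Real.exp_pos _
    intro s _ A _
    refine prob_le_one.trans (le_add_left (ENNReal.one_le_ofReal.2 ?_))
    rw [← Real.exp_add]
    refine Real.one_le_exp ?_
    have h6 := le_abs_self ρ₀
    nlinarith

end Model

end Crest.Agent.R182
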