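import Crest.Agent.R182.NA.Law

/-! R182/NA/Ac1: adding a root vector (owner helper16; statements frozen). -/

set_option autoImplicit false
set_option linter.unusedVariables false
set_option linter.unusedSectionVars false
open Set Filter Topology MeasureTheory ProbabilityTheory Matrix Crest.GroupTheory
open scoped Pointwise commutatorElement ENNReal

noncomputable section
namespace Crest.Agent.R182

namespace Model
variable {h k : ℕ} (M : Model h k)

theorem ac1_bch {i : ℕ} {X Y : V h} (hX : X ∈ M.EF i) (hY : Y ∈ M.EF i) : M.bch X Y - X - Y ∈ M.EF (i + 1) :=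
  M.bch_sub_mem (M.EF_anti (by omega) (M.br_EF hX hY)) (fun Z hZ => M.EF_anti (by omega) (M.br_EF hX hZ))
    fun Z hZ => M.EF_anti (by omega) (M.br_EF hY hZ)

theorem ac1_alg {i : ℕ} {U : Submodule ℝ (V h)} (h1 : M.EF (i + 1) ≤ U) (h2 : U ≤ M.EF i) {v X : V h}
    (hv : v ∈ M.EF i) {σ : ℝ} (hX : X - σ • v ∈ U) (τ : ℝ) : M.bch (M.bch (τ • v) X) (-((τ + σ) • v)) ∈ U := by
  have hXi : X ∈ M.EF i := by
    have := (M.EF i).add_mem (h2 hX) ((M.EF i).smul_mem σ hv)
    rwa [sub_add_cancel] at this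
  have ht : τ • v ∈ M.EF i := (M.EF i).smul_mem τ hv
  have ht' : -((τ + σ) • v) ∈ M.EF i := (M.EF i).neg_mem ((M.EF i).smul_mem _ hv)
  have e1 := M.ac1_bch ht hXi
  have hW : M.bch (τ • v) X ∈ M.EF i := by
    have := (M.EF i).add_mem ((M.EF i).add_mem (M.EF_anti (Nat.le_succ i) e1) hXi) ht
    rwa [sub_add_cancel, sub_add_cancel] at this
  have e2 := M.ac1_bch hW ht'
  have := U.add_mem (U.add_mem (h1 e2) (h1 e1)) hX
  convert this using 1
  rw [add_smul]
  abel

/-- New list `L ++ [(v, e)]` (`lawL_append`, `lawL_one`), `inv_step` with `T τ = τ + σ` (`exists_coef`, `unif_shift`),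
`Ω₀ = {|τ| ≤ R}`.  `z' = exp (τ v) * exp X * exp (-(τ + σ) v)` lies in `exp U` (`bch_sub_mem` twice: brackets of elements of
`EF i` lie in `EF (i + 1) ≤ U` by `br_EF`, `EF_anti`) and has polynomial norm (`norm_prod_le`, `exp_inj`).
Exponents: `e = min 1 (γ' / (2 (D + 1)))`, `γ = min γ' e / 2`; `ev_exp_le`. -/
theorem acs_root {i : ℕ} {U : Submodule ℝ (V h)} (h1 : M.EF (i + 1) ≤ U) (h2 : U ≤ M.EF i) (hU : M.ACS U) {v : V h}
    (hv : v ∈ M.EF i) (hn : ‖v‖ ≤ 1) {α : Fin k → ℝ} (hα : α ≠ 0) (hW : v ∈ M.W α) :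
    M.ACS (U ⊔ Submodule.span ℝ {v}) := by
  obtain ⟨L, γ', hγ', hL, hev⟩ := hU
  obtain ⟨B, D, hB, hp⟩ := M.norm_prod_le
  obtain ⟨C, hC, hco⟩ := exists_coef U v
  set e : ℝ := min 1 (γ' / (2 * (D + 1))) with he
  have he0 : 0 < e := lt_min one_pos (by positivity)
  have he1 : e ≤ 1 := min_le_left _ _
  have heD : (D : ℝ) * e < γ' := by
    have h3 : e ≤ γ' / (2 * (D + 1)) := min_le_right _ _
    rw [le_div_iff₀ (by positivity)] at h3
    have : (0 : ℝ) ≤ D := Nat.cast_nonneg D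
    nlinarith
  set γ : ℝ := min γ' e / 4 with hγ
  have hγ0 : 0 < γ := by have := lt_min hγ' he0; positivity
  have hγ1 : γ ≤ γ' / 4 := by have := min_le_left γ' e; linarith
  have hγ2 : γ ≤ e / 4 := by have := min_le_right γ' e; linarith
  refine ⟨L ++ [(v, e)], γ, hγ0, ?_, ?_⟩
  · intro x hx
    rcases List.mem_append.1 hx with hx | hx
    · exact hL x hx
    · rw [List.mem_singleton] at hx
      subst hx
      exact ⟨hn, ⟨α, hα, hW⟩, he0, he1⟩
  filter_upwards [hev, eventually_ge_atTop 0, ev_exp_le (B * (4 * (1 + C)) ^ D) heD,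
    ev_exp_le 2 (show -γ' < -γ by linarith), ev_exp_le (2 * C) (show γ - e < -γ by linarith)] with ρ hρ hρ0 k1 k2 k3
  have hpos : ∀ x ∈ scl L ρ, 0 < x.2 := by
    intro x hx
    obtain ⟨y, -, rfl⟩ := List.mem_map.1 hx
    exact Real.exp_pos _
  set R := Real.exp (e * ρ) with hR
  have hR0 : 0 < R := Real.exp_pos _
  have hR1 : 1 ≤ R := Real.one_le_exp (by positivity)
  have e0 : scl (L ++ [(v, e)]) ρ = scl L ρ ++ [(v, R)] := by simp [scl, hR]
  rw [e0, M.lawL_append hpos (by simpa using hR0), M.lawL_one v hR0]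
  rintro _ ⟨X, ⟨hXU, hXn⟩, rfl⟩ A hA
  obtain ⟨σ, hσ, hσn⟩ := hco X hXU
  have hXR : ‖X‖ ≤ R := hXn.trans (Real.exp_le_exp.2 (by nlinarith))
  haveI := unif_prob hR0
  haveI := M.lawL_prob hpos
  have key := M.inv_step (unif R) (μ := M.lawL (scl L ρ)) (δ₁ := 0) (δ₂ := |σ| / R) (Real.exp_pos _).le le_rfl
    (by positivity) hρ (M.measurable_step v) (M.exp X) (T := fun τ => τ + σ) (by fun_prop)
    (Ω₀ := {τ | |τ| ≤ R}) (by
      rw [ENNReal.ofReal_zero]
      exact (unif_ae R).le) (fun F hF hF1 => unif_shift hR0 σ hF hF1) (by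
      intro τ hτ
      have hτ' : |τ| ≤ R := hτ
      refine ⟨M.exp (M.bch (M.bch (τ • v) X) (-((τ + σ) • v))), ⟨_, ⟨M.ac1_alg h1 h2 hv hσ τ, ?_⟩, rfl⟩, ?_⟩
      · have hCR : |σ| ≤ C * R := hσn.trans (mul_le_mul_of_nonneg_left hXR (by linarith))
        obtain ⟨Z, hZ, eZ⟩ := hp ((1 + C) * R) [τ • v, X, -((τ + σ) • v)] (by nlinarith) (by
          intro Y hY
          simp only [List.mem_cons, List.not_mem_nil, or_false] at hY
          rcases hY with rfl | rfl | rfl
          · rw [norm_smul, Real.norm_eq_abs]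
            nlinarith [abs_nonneg τ, norm_nonneg v]
          · nlinarith
          · rw [norm_neg, norm_smul, Real.norm_eq_abs]
            have := abs_add_le τ σ
            nlinarith [abs_nonneg (τ + σ), norm_nonneg v])
        simp only [List.map_cons, List.map_nil, List.prod_cons, List.prod_nil, mul_one] at eZ
        rw [← mul_assoc, M.exp_bch, M.exp_bch] at eZ
        rw [M.exp_inj eZ]
        refine hZ.trans (le_trans (le_of_eq ?_) k1)
        rw [mul_assoc (D : ℝ), Real.exp_nat_mul, ← hR]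
        simp only [List.length_cons, List.length_nil]
        push_cast
        rw [mul_assoc B, ← mul_pow]
        congr 2
        ring
      · rw [← M.exp_bch, ← M.exp_bch, M.exp_neg, inv_mul_cancel_right]) A hA
  refine key.trans (add_le_add le_rfl (ENNReal.ofReal_le_ofReal ?_))
  have k4 : |σ| / R ≤ C * Real.exp ((γ - e) * ρ) := by
    rw [div_le_iff₀ hR0, hR, mul_assoc, ← Real.exp_add]
    refine hσn.trans (mul_le_mul_of_nonneg_left (hXn.trans (le_of_eq ?_)) (by linarith))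
    congr 1
    ring
  rw [neg_mul, neg_mul] at k2
  rw [neg_mul] at k3
  linarith

end Model

end Crest.Agent.R182
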