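import Crest.Agent.R182.B.SP

/-! R182/NA/Box: uniform laws on intervals and boxes (owner helper16; statements frozen). -/

set_option autoImplicit false
set_option linter.unusedVariables false
set_option linter.unusedSectionVars false
open Set Filter Topology MeasureTheory ProbabilityTheory Matrix Crest.GroupTheory
open scoped Pointwise commutatorElement ENNReal

noncomputable section
namespace Crest.Agent.R182

/-- the uniform law on `[-R, R]` -/
def unif (R : ℝ) : Measure ℝ := (volume : Measure ℝ)[|Icc (-R) R]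

/-- the uniform law on a box -/
def boxL {m : ℕ} (R : Fin m → ℝ) : Measure (Fin m → ℝ) :=
  (volume : Measure (Fin m → ℝ))[|Set.pi univ fun i => Icc (-R i) (R i)]

theorem unif_prob {R : ℝ} (hR : 0 < R) : IsProbabilityMeasure (unif R) := by
  refine cond_isProbabilityMeasure_of_finite ?_ ?_ <;> simp [hR]

theorem boxL_prob {m : ℕ} {R : Fin m → ℝ} (hR : ∀ i, 0 < R i) : IsProbabilityMeasure (boxL R) := by
  refine cond_isProbabilityMeasure_of_finite ?_ ?_ <;> rw [volume_pi_pi]
  · exact Finset.prod_ne_zero_iff.2 fun i _ => by simp [hR i]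
  · exact ENNReal.prod_ne_top fun i _ => by simp

theorem unif_ae (R : ℝ) : ∀ᵐ τ ∂unif R, |τ| ≤ R := by
  exact (ae_cond_mem measurableSet_Icc).mono fun τ h => abs_le.2 h

theorem boxL_ae {m : ℕ} (R : Fin m → ℝ) : ∀ᵐ τ ∂boxL R, ∀ i, |τ i| ≤ R i := by
  exact (ae_cond_mem (MeasurableSet.univ_pi fun i => measurableSet_Icc)).mono fun τ h i => abs_le.2 (h i trivial)

theorem lintegral_unif {R : ℝ} (hR : 0 < R) (F : ℝ → ℝ≥0∞) :
    ∫⁻ τ, F τ ∂unif R = (ENNReal.ofReal (2 * R))⁻¹ * ∫⁻ τ in Icc (-R) R, F τ := by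
  rw [unif, ProbabilityTheory.cond, lintegral_smul_measure, Real.volume_Icc, sub_neg_eq_add, two_mul, smul_eq_mul]

theorem box_shift (a b s : ℝ) {F : ℝ → ℝ≥0∞} (hF : Measurable F) :
    ∫⁻ τ in Icc a b, F (τ + s) = ∫⁻ τ in Icc (a + s) (b + s), F τ := by
  rw [← (measurePreserving_add_right volume s).setLIntegral_comp_preimage measurableSet_Icc hF]
  simp

theorem box_div {R : ℝ} (hR : 0 < R) (r : ℝ) : (ENNReal.ofReal (2 * R))⁻¹ * ENNReal.ofReal (2 * r) = ENNReal.ofReal (r / R) := by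
  rw [← ENNReal.ofReal_inv_of_pos (by positivity), ← ENNReal.ofReal_mul (by positivity)]
  congr 1; field_simp

/-- `[-R, R] + s ⊆ [-R, R] ∪ (an interval of length |s|)`, translation invariance of `volume`. -/
theorem unif_shift {R : ℝ} (hR : 0 < R) (s : ℝ) {F : ℝ → ℝ≥0∞} (hF : Measurable F) (h1 : ∀ τ, F τ ≤ 1) :
    ∫⁻ τ, F (τ + s) ∂unif R ≤ ∫⁻ τ, F τ ∂unif R + ENNReal.ofReal (|s| / R) := by
  rw [lintegral_unif hR, lintegral_unif hR, box_shift _ _ _ hF, ← box_div hR, ← mul_add]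
  refine mul_le_mul_right ((lintegral_mono_set (t := Icc (-R) R ∪ (Icc R (R + |s|) ∪ Icc (-R - |s|) (-R))) fun x hx => ?_).trans
    ((lintegral_union_le _ _ _).trans (add_le_add_right ((lintegral_mono h1).trans ?_) _))) _
  · rcases le_total x (-R) with h2 | h2
    · exact Or.inr (Or.inr ⟨by linarith [neg_abs_le s, hx.1], h2⟩)
    · exact (le_total x R).imp (⟨h2, ·⟩) fun h3 => Or.inl ⟨h3, by linarith [le_abs_self s, hx.2]⟩
  · rw [setLIntegral_one]
    refine (measure_union_le _ _).trans_eq ?_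
    rw [Real.volume_Icc, Real.volume_Icc, ← ENNReal.ofReal_add (by simp) (by simp)]
    congr 1; ring

theorem unif_small {R r : ℝ} (hR : 0 < R) (hr : 0 ≤ r) : unif R {τ | |τ| < r} ≤ ENNReal.ofReal (r / R) := by
  rw [unif, cond_apply measurableSet_Icc, Real.volume_Icc, sub_neg_eq_add, ← two_mul, ← box_div hR]
  refine mul_le_mul_right ((measure_mono (t := Icc (-r) r) fun x hx => abs_le.1 (le_of_lt hx.2)).trans_eq ?_) _
  rw [Real.volume_Icc, sub_neg_eq_add, two_mul]

theorem measurable_cons {m : ℕ} : Measurable fun p : ℝ × (Fin m → ℝ) => (Fin.cons p.1 p.2 : Fin (m + 1) → ℝ) := by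
  refine measurable_pi_lambda _ fun i => Fin.cases ?_ (fun j => ?_) i
  exacts [measurable_fst, (measurable_pi_apply j).comp measurable_snd]

theorem box_boxL_pi {m : ℕ} {R : Fin m → ℝ} (hR : ∀ i, 0 < R i) : boxL R = Measure.pi fun i => unif (R i) := by
  haveI := fun i => unif_prob (hR i)
  refine (Measure.pi_eq fun s hs => ?_).symm
  simp only [boxL, unif, cond_apply measurableSet_Icc, cond_apply (MeasurableSet.univ_pi fun _ => measurableSet_Icc)]
  rw [← pi_inter_distrib, volume_pi_pi, volume_pi_pi, Finset.prod_mul_distrib,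
    ENNReal.prod_inv_distrib fun i _ j _ _ => Or.inr measure_Icc_lt_top.ne]

/-- `measurePreserving_piFinSuccAbove` / `volume_preserving_piFinSuccAbove` at `0` (or `Measure.pi_eq` on boxes);
`cond` of a product set is the product of the `cond`s. -/
theorem boxL_succ {m : ℕ} {R : Fin (m + 1) → ℝ} (hR : ∀ i, 0 < R i) :
    boxL R = ((unif (R 0)).prod (boxL (Fin.tail R))).map fun p => (Fin.cons p.1 p.2 : Fin (m + 1) → ℝ) := by
  haveI := fun i => unif_prob (hR i)
  rw [box_boxL_pi hR, box_boxL_pi (R := Fin.tail R) fun i => hR _,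
    ← ((measurePreserving_piFinSuccAbove (fun i => unif (R i)) 0).symm _).map_eq]
  congr 1
  funext p
  exact Fin.insertNth_zero' _ _

/-- two independent uniform parameters: the difference has density at most twice the uniform density. -/
theorem unif_diff {R : ℝ} (hR : 0 < R) {F : ℝ → ℝ≥0∞} (hF : Measurable F) (s : ℝ) (hs : |s| ≤ R / 2) :
    ∫⁻ t, F (t - s) ∂unif (R / 2) ≤ 2 * ∫⁻ u, F u ∂unif R := by
  obtain ⟨h1, h2⟩ := abs_le.1 hs
  simp only [sub_eq_add_neg]
  rw [lintegral_unif (half_pos hR), lintegral_unif hR, box_shift _ _ _ hF, ← mul_assoc]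
  refine mul_le_mul' (le_of_eq ?_) (lintegral_mono_set (Icc_subset_Icc (by linarith) (by linarith)))
  rw [← ENNReal.ofReal_inv_of_pos (by positivity), ← ENNReal.ofReal_inv_of_pos (by positivity), ← ENNReal.ofReal_ofNat,
    ← ENNReal.ofReal_mul (by positivity)]
  congr 1; field_simp

theorem ev_exp_le (C : ℝ) {a b : ℝ} (hab : a < b) : ∀ᶠ ρ in atTop, C * Real.exp (a * ρ) ≤ Real.exp (b * ρ) := by
  filter_upwards [eventually_ge_atTop (C / (b - a))] with ρ hρ
  rw [div_le_iff₀ (sub_pos.2 hab)] at hρ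
  rw [show b * ρ = ρ * (b - a) + a * ρ by ring, Real.exp_add]
  exact mul_le_mul_of_nonneg_right (by linarith [Real.add_one_le_exp (ρ * (b - a))]) (Real.exp_pos _).le

theorem ev_poly_le (C : ℝ) (D : ℕ) {b : ℝ} (hb : 0 < b) : ∀ᶠ ρ in atTop, C * (1 + ρ) ^ D ≤ Real.exp (b * ρ) := by
  obtain ⟨w₀, h0, h1⟩ := Model.bxg_ev C 1 D hb
  filter_upwards [eventually_ge_atTop w₀] with ρ hρ using h1 ρ hρ ρ (h0.trans hρ) (one_mul ρ).ge

end Crest.Agent.R182
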