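import Crest.Agent.R182.NA.Law

/-! R182/NA/Ch1: one step of the density chain (owner helper16; statements frozen). -/

set_option autoImplicit false
set_option linter.unusedVariables false
set_option linter.unusedSectionVars false
open Set Filter Topology MeasureTheory ProbabilityTheory Matrix Crest.GroupTheory
open scoped Pointwise commutatorElement ENNReal

noncomputable section
namespace Crest.Agent.R182

namespace Model
variable {h k : ℕ} (M : Model h k)

omit M in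
theorem ch1_cs {G : Type*} [MeasurableSpace G] (μ : Measure G) {A : G → ℝ≥0∞} (hA : Measurable A) {S : Set G}
    (hS : MeasurableSet S) (h0 : ∀ x ∉ S, A x = 0) : (∫⁻ x, A x ∂μ) ^ 2 ≤ μ S * ∫⁻ x, A x * A x ∂μ := by
  have h1 := ENNReal.lintegral_mul_le_Lp_mul_Lq μ Real.HolderConjugate.two_two
    (f := S.indicator 1) (g := A) (measurable_one.indicator hS).aemeasurable hA.aemeasurable
  have e1 : (S.indicator 1 * A : G → ℝ≥0∞) = A := by
    funext x
    by_cases hx : x ∈ S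
    · simp [hx]
    · simp [h0 x hx]
  have e2 : ∫⁻ x, (S.indicator 1 : G → ℝ≥0∞) x ^ (2 : ℝ) ∂μ = μ S := by
    rw [← lintegral_indicator_one hS]
    refine lintegral_congr fun x => ?_
    by_cases hx : x ∈ S <;> simp [hx]
  have e3 : ∫⁻ x, A x ^ (2 : ℝ) ∂μ = ∫⁻ x, A x * A x ∂μ :=
    lintegral_congr fun x => by rw [ENNReal.rpow_two, sq]
  rw [e1, e2, e3, ← ENNReal.mul_rpow_of_nonneg _ _ (by norm_num)] at h1
  refine (pow_le_pow_left' h1 2).trans_eq ?_
  rw [← ENNReal.rpow_two, ← ENNReal.rpow_mul]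
  norm_num

omit M in
theorem ch1_abs {G : Type*} [Group G] [MeasurableSpace G] [MeasurableMul₂ G] (μ : Measure G) [SFinite μ] {e : ℝ → G}
    (he : Measurable e) (hadd : ∀ s t, e (s + t) = e s * e t) (hinv : ∀ t, MeasurePreserving (fun g => g * e t) μ μ)
    {R : ℝ} (hR : 0 < R) {F : G → ℝ≥0∞} (hF : Measurable F) {S : Set G} (hS : MeasurableSet S)
    (h0 : ∀ x ∉ S, ∀ t, |t| ≤ R / 2 → F (x * e t) = 0) :
    (∫⁻ x, F x ∂μ) ^ 2 ≤ μ S * (2 * ∫⁻ x, F x * ∫⁻ τ, F (x * e τ) ∂unif R ∂μ) := by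
  have := unif_prob hR
  have := unif_prob (half_pos hR)
  have hm : Measurable fun z : G × ℝ => F (z.1 * e z.2) := hF.comp (measurable_fst.mul (he.comp measurable_snd))
  have hA : Measurable fun x => ∫⁻ τ, F (x * e τ) ∂unif (R / 2) := hm.lintegral_prod_right'
  have hB : Measurable fun x => ∫⁻ τ, F (x * e τ) ∂unif R := hm.lintegral_prod_right'
  have e1 : ∫⁻ x, F x ∂μ = ∫⁻ x, ∫⁻ τ, F (x * e τ) ∂unif (R / 2) ∂μ := by
    rw [lintegral_lintegral_swap hm.aemeasurable, lintegral_congr fun τ => (hinv τ).lintegral_comp hF]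
    simp
  rw [e1]
  refine (ch1_cs μ hA hS fun x hx => ?_).trans (mul_le_mul_right ?_ _)
  · refine lintegral_eq_zero_of_ae_eq_zero ?_
    filter_upwards [unif_ae (R / 2)] with t ht using h0 x hx t ht
  have e2 : ∀ x, (∫⁻ τ, F (x * e τ) ∂unif (R / 2)) * ∫⁻ τ, F (x * e τ) ∂unif (R / 2) =
      ∫⁻ s, F (x * e s) * ∫⁻ τ, F (x * e τ) ∂unif (R / 2) ∂unif (R / 2) := fun x =>
    (lintegral_mul_const _ (hF.comp (measurable_const.mul he))).symm
  simp only [e2]
  rw [lintegral_lintegral_swap (hm.mul (hA.comp measurable_fst)).aemeasurable]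
  refine (lintegral_mono_ae (g := fun _ => 2 * ∫⁻ x, F x * ∫⁻ τ, F (x * e τ) ∂unif R ∂μ) ?_).trans (by simp)
  filter_upwards [unif_ae (R / 2)] with s hs
  rw [← (hinv s).lintegral_comp (f := fun x => F x * ∫⁻ τ, F (x * e τ) ∂unif R) (hF.mul hB), ← lintegral_const_mul' _ _ ENNReal.ofNat_ne_top]
  refine lintegral_mono fun x => ?_
  rw [mul_left_comm]
  refine mul_le_mul_right (le_of_eq_of_le (lintegral_congr fun t => ?_)
    (unif_diff hR (F := fun τ => F (x * e s * e τ)) (hF.comp (measurable_const.mul he)) s hs)) _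
  rw [mul_assoc, ← hadd, add_sub_cancel]

/-- `A F x = ∫ F (x exp (τ v)) d unif (R / 2)` has the same integral as `F` (`hm_mul_right`, Tonelli) and vanishes outside
`exp (D₀ • Gv ρ)` (`exp_Qi_mul 1`, `EV_subset_Gv`), whose measure is `D₀ ^ dim * hm (exp Gv ρ)` (`hm_exp`, `hV_smul`).
Cauchy-Schwarz (`ENNReal.lintegral_mul_le_Lp_mul_Lq` with `2, 2`), expand the square, substitute `y = x exp (s v)`, `unif_diff`. -/
theorem chain_step : ∃ D : ℝ, 1 ≤ D ∧ ∀ (v : V h) (R ρ : ℝ), v ∈ M.E → 0 < R → R * ‖v‖ ≤ Real.exp ρ →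
    ∀ F : M.G → ℝ≥0∞, Measurable F → (∀ x, x ∉ M.exp '' M.Gv ρ → F x = 0) →
      (∫⁻ x, F x ∂M.hm M.E) ^ 2 ≤ ENNReal.ofReal D * M.hm M.E (M.exp '' M.Gv ρ) *
        ∫⁻ x, F x * ∫⁻ τ, F (x * M.exp (τ • v)) ∂unif R ∂M.hm M.E := by
  obtain ⟨D, hD, -, hmul⟩ := M.exp_Qi_mul 1
  have hP : 1 ≤ D ^ Module.finrank ℝ M.E := one_le_pow₀ hD
  refine ⟨2 * D ^ Module.finrank ℝ M.E, by linarith, fun v R ρ hv hR hρ F hF h0 => ?_⟩
  have hE : M.IsSub M.E := Core.IsIdl.isSub _ M.isIdl_E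
  have hS : MeasurableSet (M.exp '' (D • M.Gv ρ)) :=
    (((M.isCompact_Gv ρ).smul D).image M.continuous_exp).measurableSet
  refine (ch1_abs (M.hm M.E) (e := fun τ => M.exp (τ • v)) (M.measurable_step v) (fun s t => M.exp_add_smul s t v)
    (fun t => M.hm_mul_right hE ((M.exp_mem_expSub hE).2 (M.E.smul_mem t hv))) hR hF hS fun x hx t ht => ?_).trans_eq ?_
  · refine h0 _ fun hy => hx (hmul _ (M.star_EV ρ) ⟨x * M.exp (t • v), by rwa [one_smul], M.exp (-(t • v)), ?_, ?_⟩)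
    · rw [one_smul]
      refine ⟨_, M.EV_subset_Gv ρ ⟨M.E.neg_mem (M.E.smul_mem t hv), ?_⟩, rfl⟩
      rw [norm_neg, norm_smul, Real.norm_eq_abs]
      exact (mul_le_mul_of_nonneg_right (by linarith) (norm_nonneg v)).trans hρ
    · simp only [M.exp_neg, mul_inv_cancel_right]
  · rw [M.hm_exp, M.hm_exp, hV_smul _ (by linarith), ENNReal.ofReal_mul (by norm_num), ENNReal.ofReal_ofNat]
    ring

end Model

end Crest.Agent.R182
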