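import Crest.Agent.R182.NA.Box

/-! R182/NA/Law: laws of random words (owner helper16; statements frozen). -/

set_option autoImplicit false
set_option linter.unusedVariables false
set_option linter.unusedSectionVars false
open Set Filter Topology MeasureTheory ProbabilityTheory Matrix Crest.GroupTheory
open scoped Pointwise commutatorElement ENNReal

noncomputable section
namespace Crest.Agent.R182

namespace Model
variable {h k : ℕ} (M : Model h k)

/-- the law of `exp (τ • v)`, `τ` uniform in `[-R, R]` -/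
def stepL (v : V h) (R : ℝ) : Measure M.G := (unif R).map fun τ => M.exp (τ • v)

/-- the law of a product of independent steps -/
def lawL : List (V h × ℝ) → Measure M.G
  | [] => Measure.dirac 1
  | x :: L => M.stepL x.1 x.2 ∗ₘ lawL L

theorem measurable_step (v : V h) : Measurable fun τ : ℝ => M.exp (τ • v) := by
  exact M.measurable_exp.comp (measurable_id.smul_const v)

theorem stepL_prob (v : V h) {R : ℝ} (hR : 0 < R) : IsProbabilityMeasure (M.stepL v R) := by
  have := unif_prob hR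
  exact Measure.isProbabilityMeasure_map (M.measurable_step v).aemeasurable

theorem lawL_prob {L : List (V h × ℝ)} (hL : ∀ x ∈ L, 0 < x.2) : IsProbabilityMeasure (M.lawL L) := by
  induction L with
  | nil => rw [lawL]; infer_instance
  | cons x L ih =>
    have := M.stepL_prob x.1 (hL x (by simp))
    have := ih fun y hy => hL y (by simp [hy])
    rw [lawL]
    infer_instance

theorem lawL_append {L L' : List (V h × ℝ)} (hL : ∀ x ∈ L, 0 < x.2) (hL' : ∀ x ∈ L', 0 < x.2) :
    M.lawL (L ++ L') = M.lawL L ∗ₘ M.lawL L' := by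
  have := M.lawL_prob hL'
  induction L with
  | nil => rw [List.nil_append, lawL, Measure.dirac_one_mconv]
  | cons x L ih =>
    have := M.stepL_prob x.1 (hL x (by simp))
    have h1 : ∀ y ∈ L, 0 < y.2 := fun y hy => hL y (by simp [hy])
    have := M.lawL_prob h1
    rw [List.cons_append, lawL, lawL, ih h1, Measure.mconv_assoc]

theorem measurable_word {m : ℕ} (v : Fin m → V h) (j : ℕ) :
    Measurable fun τ : Fin m → ℝ => ((List.ofFn fun i => M.exp (τ i • v i)).take j).prod := by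
  induction m generalizing j with
  | zero => simp
  | succ m ih =>
    cases j with
    | zero => simp
    | succ j =>
      simp only [List.ofFn_succ, List.take_succ_cons, List.prod_cons]
      exact ((M.measurable_step (v 0)).comp (measurable_pi_apply 0)).mul
        ((ih (fun i => v i.succ) j).comp (measurable_pi_lambda _ fun i => measurable_pi_apply (Fin.succ i)))

theorem measurable_word' {m : ℕ} (v : Fin m → V h) :
    Measurable fun τ : Fin m → ℝ => (List.ofFn fun i => M.exp (τ i • v i)).prod := by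
  have := M.measurable_word v m
  simpa only [List.take_of_length_le (le_of_eq (List.length_ofFn (f := _)))] using this

/-- induction on `m` with `boxL_succ`, `List.ofFn_succ`, `Measure.map_prod_map`. -/
theorem map_boxL {m : ℕ} (v : Fin m → V h) {R : Fin m → ℝ} (hR : ∀ i, 0 < R i) :
    (boxL R).map (fun τ => (List.ofFn fun i => M.exp (τ i • v i)).prod) = M.lawL (List.ofFn fun i => (v i, R i)) := by
  induction m with
  | zero =>
    have := boxL_prob hR
    simp [lawL]
  | succ m ih =>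
    have := unif_prob (hR 0)
    have hR' : ∀ i, 0 < Fin.tail R i := fun i => hR i.succ
    have := boxL_prob hR'
    rw [boxL_succ hR, Measure.map_map (M.measurable_word' v) measurable_cons, List.ofFn_succ, lawL]
    have h1 := ih (fun i => v i.succ) hR'
    change _ = M.lawL (List.ofFn fun i => (v i.succ, R i.succ)) at h1
    rw [← h1, stepL, Measure.mconv, Measure.map_prod_map _ _ (M.measurable_step _) (M.measurable_word' _),
      Measure.map_map (by fun_prop) ((M.measurable_step _).prodMap (M.measurable_word' _))]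
    congr 1
    funext p
    simp [List.ofFn_succ]

theorem lawL_one (v : V h) {R : ℝ} (hR : 0 < R) : M.lawL [(v, R)] = (unif R).map fun τ => M.exp (τ • v) := by
  have := M.stepL_prob v hR
  rw [lawL, lawL, Measure.mconv_dirac_one, stepL]

theorem lawL_three (Y Z : V h) {R : ℝ} (hR : 0 < R) : M.lawL [(Y, R), (Z, R), (Y, R)] =
    ((unif R).prod ((unif R).prod (unif R))).map fun τ => M.exp (τ.1 • Y) * M.exp (τ.2.1 • Z) * M.exp (τ.2.2 • Y) := by
  have := unif_prob hR
  have h1 := M.measurable_step Y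
  have h2 := M.measurable_step Z
  have hm : Measurable fun p : M.G × M.G => p.1 * p.2 := by fun_prop
  rw [lawL, lawL, M.lawL_one Y hR, stepL, stepL, Measure.mconv, Measure.mconv, Measure.map_prod_map _ _ h2 h1,
    Measure.map_map hm (h2.prodMap h1), Measure.map_prod_map _ _ h1 (hm.comp (h2.prodMap h1)),
    Measure.map_map hm (h1.prodMap (hm.comp (h2.prodMap h1)))]
  congr 1
  funext p
  simp [mul_assoc]

theorem law_mconv_map {Ω : Type} [MeasurableSpace Ω] (P : Measure Ω) [IsProbabilityMeasure P] (μ : Measure M.G)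
    [IsProbabilityMeasure μ] {u : Ω → M.G} (hu : Measurable u) {A : Set M.G} (hA : MeasurableSet A) :
    Measurable (fun ω => μ {g | g * u ω ∈ A}) ∧ (μ ∗ₘ P.map u) A = ∫⁻ ω, μ {g | g * u ω ∈ A} ∂P := by
  have hB : MeasurableSet ((fun z : M.G × M.G => z.1 * z.2) ⁻¹' A) := (measurable_fst.mul measurable_snd) hA
  have hm : Measurable fun y : M.G => μ ((fun x => (x, y)) ⁻¹' ((fun z : M.G × M.G => z.1 * z.2) ⁻¹' A)) :=
    measurable_measure_prodMk_right hB
  refine ⟨hm.comp hu, ?_⟩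
  have := Measure.isProbabilityMeasure_map (μ := P) hu.aemeasurable
  rw [Measure.mconv, Measure.map_apply measurable_mul hA, Measure.prod_apply_symm hB,
    lintegral_map hm hu]
  rfl

/-- `(μ ∗ u_* P) A = ∫ μ {g | g * u ω ∈ A} dP` (Tonelli); on `Ω₀` use `Inv_apply`; `F ω = μ {g | g * u ω ∈ A}`. -/
theorem inv_step {Ω : Type} [MeasurableSpace Ω] (P : Measure Ω) [IsProbabilityMeasure P] {μ : Measure M.G}
    [IsProbabilityMeasure μ] {S : Set M.G} {η δ₁ δ₂ : ℝ} (hη : 0 ≤ η) (h1 : 0 ≤ δ₁) (h2 : 0 ≤ δ₂) (hμ : Inv μ S η)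
    {u : Ω → M.G} (hu : Measurable u) (z : M.G) {T : Ω → Ω} (hT : Measurable T) {Ω₀ : Set Ω}
    (hΩ : P Ω₀ᶜ ≤ ENNReal.ofReal δ₁)
    (hdom : ∀ F : Ω → ℝ≥0∞, Measurable F → (∀ ω, F ω ≤ 1) → ∫⁻ ω, F (T ω) ∂P ≤ ∫⁻ ω, F ω ∂P + ENNReal.ofReal δ₂)
    (hz : ∀ ω ∈ Ω₀, ∃ z' ∈ S, u ω * z = z' * u (T ω)) (A : Set M.G) (hA : MeasurableSet A) :
    (μ ∗ₘ P.map u) ((· * z) ⁻¹' A) ≤ (μ ∗ₘ P.map u) A + ENNReal.ofReal (η + δ₁ + δ₂) := by

  obtain ⟨mA, eA⟩ := M.law_mconv_map P μ hu hA
  obtain ⟨-, eB⟩ := M.law_mconv_map P μ hu (measurable_mul_const z hA)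
  rw [eA, eB]
  have hN := measurableSet_toMeasurable P Ω₀ᶜ
  have h3 : ∀ ω, μ {g | g * u ω ∈ (· * z) ⁻¹' A} ≤
      (μ {g | g * u (T ω) ∈ A} + ENNReal.ofReal η) + (toMeasurable P Ω₀ᶜ).indicator 1 ω := by
    intro ω
    by_cases hω : ω ∈ Ω₀
    · obtain ⟨z', hz', e⟩ := hz ω hω
      refine le_trans ?_ le_self_add
      refine le_trans (le_of_eq ?_) (M.Inv_apply hμ hz' {g | g * u (T ω) ∈ A})
      congr 1
      ext g
      simp only [mem_ofPred_eq, mem_preimage, mul_assoc, e]
    · rw [indicator_of_mem (subset_toMeasurable P Ω₀ᶜ hω)]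
      exact prob_le_one.trans le_add_self
  refine (lintegral_mono h3).trans ?_
  rw [lintegral_add_right _ (measurable_one.indicator hN), lintegral_indicator_one hN, measure_toMeasurable,
    lintegral_add_right _ measurable_const, lintegral_const, measure_univ, mul_one,
    ENNReal.ofReal_add (add_nonneg hη h1) h2, ENNReal.ofReal_add hη h1]
  have h4 := hdom _ mA fun ω => prob_le_one
  calc _ ≤ (∫⁻ ω, μ {g | g * u ω ∈ A} ∂P + ENNReal.ofReal δ₂) + ENNReal.ofReal η + ENNReal.ofReal δ₁ := by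
        gcongr
    _ = _ := by ring

/-- the list of steps at scale `ρ` -/
def _root_.Crest.Agent.R182.scl (L : List (V h × ℝ)) (ρ : ℝ) : List (V h × ℝ) := L.map fun x => (x.1, Real.exp (x.2 * ρ))

/-- admissible steps -/
def AcOK (x : V h × ℝ) : Prop := ‖x.1‖ ≤ 1 ∧ (∃ α, α ≠ 0 ∧ x.1 ∈ M.W α) ∧ 0 < x.2 ∧ x.2 ≤ 1

/-- some random word is almost invariant under `exp (U ∩ ball)` -/
def ACS (U : Submodule ℝ (V h)) : Prop := ∃ (L : List (V h × ℝ)) (γ : ℝ), 0 < γ ∧ (∀ x ∈ L, M.AcOK x) ∧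
  ∀ᶠ ρ in atTop, Inv (M.lawL (scl L ρ)) (M.exp '' {X | X ∈ U ∧ ‖X‖ ≤ Real.exp (γ * ρ)}) (Real.exp (-(γ * ρ)))

/-- as in `logS_step` (`Submodule.exists_le_ker_of_notMem`); `σ = 0` if `v ∈ U`. -/
theorem _root_.Crest.Agent.R182.exists_coef (U : Submodule ℝ (V h)) (v : V h) : ∃ C : ℝ, 1 ≤ C ∧
    ∀ X ∈ U ⊔ Submodule.span ℝ {v}, ∃ σ : ℝ, X - σ • v ∈ U ∧ |σ| ≤ C * ‖X‖ := by

  by_cases hv : v ∈ U
  · refine ⟨1, le_rfl, fun X hX => ⟨0, ?_, by simp⟩⟩
    rw [sup_eq_left.2 ((Submodule.span_singleton_le_iff_mem v U).2 hv)] at hX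
    simpa using hX
  obtain ⟨ℓ, h1, h2⟩ := Submodule.exists_le_ker_of_notMem hv
  have h3 : 0 < |ℓ v| := abs_pos.2 h1
  refine ⟨1 + ‖LinearMap.toContinuousLinearMap ℓ‖ / |ℓ v|, le_add_of_nonneg_right (by positivity), fun X hX => ?_⟩
  obtain ⟨y, hy, w, hw, rfl⟩ := Submodule.mem_sup.1 hX
  obtain ⟨σ, rfl⟩ := Submodule.mem_span_singleton.1 hw
  refine ⟨σ, by simpa using hy, ?_⟩
  have h4 : ℓ (y + σ • v) = σ * ℓ v := by
    rw [map_add, map_smul, LinearMap.mem_ker.1 (h2 hy), zero_add, smul_eq_mul]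
  have h5 := (LinearMap.toContinuousLinearMap ℓ).le_opNorm (y + σ • v)
  rw [LinearMap.coe_toContinuousLinearMap', h4, Real.norm_eq_abs, abs_mul, ← le_div_iff₀ h3] at h5
  rw [add_mul, div_mul_eq_mul_div]
  have := norm_nonneg (y + σ • v)
  linarith

end Model

end Crest.Agent.R182
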